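import Vale.Agent.P329.GenExpr
import Mathlib.GroupTheory.Perm.Sign
import Mathlib.GroupTheory.Perm.Fin
import Mathlib.GroupTheory.Perm.Closure
import Mathlib.Algebra.Group.Subgroup.Finite
import Mathlib.Tactic

/-! Symmetric groups whose word languages have height at most one. -/

namespace Vale.Agent.P329

variable {α : Type}

/-- The language of the words satisfying `p`. -/
def lset (p : List α → Prop) : Language α := {w | p w}

theorem mem_lset {p : List α → Prop} {w : List α} : w ∈ lset p ↔ p w := Iff.rfl

theorem HeightLE.mono {c c' : ℕ} {L : Language α} (h : HeightLE c L) (hc : c ≤ c') :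
    HeightLE c' L := let ⟨P, h1, h2⟩ := h; ⟨P, h1.trans hc, h2⟩

theorem heightLE_empty (c : ℕ) : HeightLE c (lset (fun (w : List α) => False)) :=
  ⟨GenExpr.zero, Nat.zero_le c, Set.ext fun w => iff_of_false (Language.notMem_zero w) id⟩

theorem heightLE_univ (c : ℕ) : HeightLE c (lset (fun (w : List α) => True)) :=
  ⟨GenExpr.compl GenExpr.zero, Nat.zero_le c,
    Set.ext fun w => iff_of_true (Language.notMem_zero w) trivial⟩

theorem HeightLE.union {c : ℕ} {L M : Language α} (h : HeightLE c L) (h' : HeightLE c M) :
    HeightLE c (lset (fun (w : List α) => w ∈ L ∨ w ∈ M)) := by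
  obtain ⟨P, h1, rfl⟩ := h
  obtain ⟨Q, h2, rfl⟩ := h'
  exact ⟨P.add Q, max_le h1 h2, rfl⟩

theorem HeightLE.not {c : ℕ} {L : Language α} (h : HeightLE c L) :
    HeightLE c (lset (fun (w : List α) => w ∉ L)) := by
  obtain ⟨P, h1, rfl⟩ := h
  exact ⟨P.compl, h1, rfl⟩

theorem HeightLE.mul {c : ℕ} {L M : Language α} (h : HeightLE c L) (h' : HeightLE c M) :
    HeightLE c (L * M) := by
  obtain ⟨P, h1, rfl⟩ := h
  obtain ⟨Q, h2, rfl⟩ := h'
  exact ⟨P.mul Q, max_le h1 h2, rfl⟩

theorem HeightLE.congr {c : ℕ} {L M : Language α} (h : HeightLE c L)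
    (e : ∀ w, w ∈ L ↔ w ∈ M) : HeightLE c M := by
  obtain ⟨P, h1, h2⟩ := h
  exact ⟨P, h1, h2.trans (Set.ext e)⟩

theorem heightLE_exists {ι : Type} {c : ℕ} (s : Finset ι) (L : ι → Language α)
    (h : ∀ i ∈ s, HeightLE c (L i)) :
    HeightLE c (lset (fun (w : List α) => ∃ i ∈ s, w ∈ L i)) := by
  classical
  induction s using Finset.induction_on with
  | empty =>
    refine (heightLE_empty c).congr fun w => iff_of_false id ?_
    rintro ⟨i, hi, -⟩
    simp at hi
  | @insert a s ha ih =>
    refine ((h a (Finset.mem_insert_self a s)).union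
      (ih fun i hi => h i (Finset.mem_insert_of_mem hi))).congr fun w => ?_
    constructor
    · rintro (h1 | ⟨i, hi, h1⟩)
      · exact ⟨a, Finset.mem_insert_self a s, h1⟩
      · exact ⟨i, Finset.mem_insert_of_mem hi, h1⟩
    · rintro ⟨i, hi, h1⟩
      rcases Finset.mem_insert.mp hi with rfl | hi
      · exact Or.inl h1
      · exact Or.inr ⟨i, hi, h1⟩

theorem heightLE_forall {ι : Type} {c : ℕ} (s : Finset ι) (L : ι → Language α)
    (h : ∀ i ∈ s, HeightLE c (L i)) :
    HeightLE c (lset (fun (w : List α) => ∀ i ∈ s, w ∈ L i)) := by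
  refine (heightLE_exists s (fun i => (lset (fun (w : List α) => w ∉ L i)))
    (fun i hi => (h i hi).not)).not.congr fun w => ?_
  constructor
  · intro h1 i hi
    by_contra h2
    exact h1 ⟨i, hi, h2⟩
  · rintro h1 ⟨i, hi, h2⟩
    exact h2 (h1 i hi)

/-! ### Automata that move forward -/

variable {S : Type} (g : α → S → S) (j : S)

/-- Reading `w` from `x` never lands on `j`. -/
def Avoid : S → List α → Prop
  | _, [] => True
  | x, l :: w => g l x ≠ j ∧ Avoid (g l x) w

/-- The state after reading `w`. -/
def run (x : S) (w : List α) : S := w.foldl (fun y l => g l y) x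

theorem run_append (x : S) (u v : List α) : run g x (u ++ v) = run g (run g x u) v := by
  simp [run, List.foldl_append]

theorem avoid_append (x : S) (u v : List α) :
    Avoid g j x (u ++ v) ↔ Avoid g j x u ∧ Avoid g j (run g x u) v := by
  induction u generalizing x with
  | nil => simp [Avoid, run]
  | cons l u ih =>
    simp only [List.cons_append, Avoid, ih, and_assoc]
    rfl

theorem first_hit : ∀ (x : S) (w : List α), Avoid g j x w ∨
    ∃ u l v, w = u ++ l :: v ∧ Avoid g j x u ∧ g l (run g x u) = j
  | x, [] => Or.inl trivial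
  | x, l :: w => by
    by_cases h : g l x = j
    · exact Or.inr ⟨[], l, w, rfl, trivial, h⟩
    · rcases first_hit (g l x) w with h' | ⟨u, l', v, e, h1, h2⟩
      · exact Or.inl ⟨h, h'⟩
      · exact Or.inr ⟨l :: u, l', v, by rw [e]; rfl, ⟨h, h1⟩, h2⟩

theorem run_eq_self (x : S) : ∀ w : List α, (∀ l ∈ w, g l x = x) → run g x w = x
  | [], _ => rfl
  | l :: w, h => by
    have hl : g l x = x := h l (by simp)
    show run g (g l x) w = x
    rw [hl]
    exact run_eq_self x w fun l' hl' => h l' (by simp [hl'])

theorem avoid_of_fixed (x : S) (hx : x ≠ j) :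
    ∀ w : List α, (∀ l ∈ w, g l x = x) → Avoid g j x w
  | [], _ => trivial
  | l :: w, h => by
    have hl : g l x = x := h l (by simp)
    refine ⟨by rw [hl]; exact hx, ?_⟩
    rw [hl]
    exact avoid_of_fixed x hx w fun l' hl' => h l' (by simp [hl'])

theorem heightLE_letter (a : α) : HeightLE 0 ({[a]} : Language α) :=
  ⟨GenExpr.letter a, le_rfl, rfl⟩

theorem heightLE_one : HeightLE 0 (1 : Language α) := ⟨GenExpr.one, le_rfl, rfl⟩

theorem mem_singleton_lang {a : List α} {w : List α} : w ∈ ({a} : Language α) ↔ w = a :=
  Iff.rfl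

variable [Fintype α] [Fintype S]

/-- Words of letters fixing `x`. -/
theorem heightLE_fixed (x : S) :
    HeightLE 0 (lset (fun (w : List α) => ∀ l ∈ w, g l x = x)) := by
  classical
  refine (heightLE_exists (Finset.univ.filter fun l => g l x ≠ x)
    (fun l => (lset (fun (w : List α) => True)) * ({[l]} : Language α) * (lset (fun (w : List α) => True)))
    (fun l _ => ((heightLE_univ 0).mul (heightLE_letter l)).mul (heightLE_univ 0))).not.congr
    fun w => ?_
  constructor
  · intro h l hl
    by_contra hne
    obtain ⟨u, v, rfl⟩ := List.append_of_mem hl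
    refine h ⟨l, by simp [hne], ?_⟩
    rw [show u ++ l :: v = (u ++ [l]) ++ v by simp]
    exact Language.append_mem_mul (Language.append_mem_mul trivial rfl) trivial
  · rintro h ⟨l, hl, hw⟩
    obtain ⟨p, hp, q, -, rfl⟩ := Language.mem_mul.mp hw
    obtain ⟨u, -, v, hv, rfl⟩ := Language.mem_mul.mp hp
    rw [mem_singleton_lang] at hv
    subst hv
    simp only [Finset.mem_filter] at hl
    exact hl.2 (h l (by simp))

variable (rank : S → ℕ)
  (hrank : ∀ l x, x ≠ j → g l x ≠ j → g l x ≠ x → rank (g l x) < rank x)

include hrank in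
theorem heightLE_avoid : ∀ (x : S), x ≠ j → ∀ y : S,
    HeightLE 0 (lset (fun (w : List α) => Avoid g j x w ∧ run g x w = y)) := by
  classical
  intro x
  induction hn : rank x using Nat.strong_induction_on generalizing x with
  | _ r ih =>
    intro hx y
    subst hn
    have h1 : HeightLE 0 (lset (fun (w : List α) => (∀ l ∈ w, g l x = x) ∧ x = y)) := by
      by_cases hxy : x = y
      · exact (heightLE_fixed g x).congr fun w => ⟨fun h => ⟨h, hxy⟩, fun h => h.1⟩
      · exact (heightLE_empty 0).congr fun w => iff_of_false id fun h => hxy h.2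
    have h2 := heightLE_exists (c := 0)
      (Finset.univ.filter fun l : α => g l x ≠ x ∧ g l x ≠ j)
      (fun l => (lset (fun (w : List α) => ∀ l' ∈ w, g l' x = x)) * ({[l]} : Language α) *
        (lset (fun (w : List α) => Avoid g j (g l x) w ∧ run g (g l x) w = y)))
      (fun l hl => by
        simp only [Finset.mem_filter] at hl
        exact ((heightLE_fixed g x).mul (heightLE_letter l)).mul
          (ih _ (hrank l x hx hl.2.2 hl.2.1) _ rfl hl.2.2 y))
    refine (h1.union h2).congr fun w => ?_
    constructor
    · rintro (⟨h, rfl⟩ | ⟨l, hl, hw⟩)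
      · exact ⟨avoid_of_fixed g j x hx w h, run_eq_self g x w h⟩
      · simp only [Finset.mem_filter] at hl
        obtain ⟨p, hp, v, ⟨hv1, hv2⟩, rfl⟩ := Language.mem_mul.mp hw
        obtain ⟨u, hu, s, hs, rfl⟩ := Language.mem_mul.mp hp
        rw [mem_singleton_lang] at hs
        subst hs
        refine ⟨?_, ?_⟩
        · rw [List.append_assoc, avoid_append, run_eq_self g x u hu]
          exact ⟨avoid_of_fixed g j x hx u hu, hl.2.2, hv1⟩
        · rw [List.append_assoc, run_append, run_eq_self g x u hu]
          exact hv2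
    · rintro ⟨ha, hr⟩
      by_cases hfix : ∀ l ∈ w, g l x = x
      · exact Or.inl ⟨hfix, by rw [← hr, run_eq_self g x w hfix]⟩
      · right
        have key : ∀ w : List α, ¬ (∀ l ∈ w, g l x = x) →
            ∃ u l v, w = u ++ l :: v ∧ (∀ l' ∈ u, g l' x = x) ∧ g l x ≠ x := by
          intro w
          induction w with
          | nil => intro h; exact absurd (by simp) h
          | cons l w ihw =>
            intro h
            by_cases hl : g l x = x
            · obtain ⟨u, l', v, e, h1, h2⟩ :=
                ihw fun h' => h (by simpa [hl] using h')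
              exact ⟨l :: u, l', v, by rw [e]; rfl, by simpa [hl] using h1, h2⟩
            · exact ⟨[], l, w, rfl, by simp, hl⟩
        obtain ⟨u, l, v, rfl, hu, hl⟩ := key w hfix
        rw [avoid_append, run_eq_self g x u hu] at ha
        rw [run_append, run_eq_self g x u hu] at hr
        refine ⟨l, by simp [hl, ha.2.1], ?_⟩
        rw [show u ++ l :: v = (u ++ [l]) ++ v by simp]
        exact Language.append_mem_mul (Language.append_mem_mul hu rfl) ⟨ha.2.2, hr⟩

include hrank in
theorem heightLE_run (y : S) :
    HeightLE 1 (lset (fun (w : List α) => run g j w = y)) := by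
  classical
  -- first returns
  let R : Language α := {w | w ≠ [] ∧ run g j w = j ∧
    ∃ u l, w = u ++ [l] ∧ Avoid g j j u}
  have hpre : ∀ y, HeightLE 0 (lset (fun (w : List α) => Avoid g j j w ∧ run g j w = y)) := by
    intro y
    have h2 := heightLE_exists (c := 0) (Finset.univ.filter fun l : α => g l j ≠ j)
      (fun l => ({[l]} : Language α) *
        (lset (fun (w : List α) => Avoid g j (g l j) w ∧ run g (g l j) w = y)))
      (fun l hl => by
        simp only [Finset.mem_filter] at hl
        exact (heightLE_letter l).mul (heightLE_avoid g j rank hrank _ hl.2 y))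
    have h1 : HeightLE 0 (lset (fun (w : List α) => w = [] ∧ j = y)) := by
      by_cases hy : j = y
      · exact heightLE_one.congr fun w =>
          ⟨fun h => ⟨Language.mem_one w |>.mp h, hy⟩, fun h => Language.mem_one w |>.mpr h.1⟩
      · exact (heightLE_empty 0).congr fun w => iff_of_false id fun h => hy h.2
    refine (h1.union h2).congr fun w => ?_
    constructor
    · rintro (⟨rfl, rfl⟩ | ⟨l, hl, hw⟩)
      · exact ⟨trivial, rfl⟩
      · simp only [Finset.mem_filter] at hl
        obtain ⟨s, hs, v, ⟨hv1, hv2⟩, rfl⟩ := Language.mem_mul.mp hw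
        rw [mem_singleton_lang] at hs
        subst hs
        exact ⟨⟨hl.2, hv1⟩, hv2⟩
    · rintro ⟨ha, hr⟩
      cases w with
      | nil => exact Or.inl ⟨rfl, hr⟩
      | cons l v =>
        exact Or.inr ⟨l, by simp [ha.1],
          Language.append_mem_mul (show [l] ∈ ({[l]} : Language α) from rfl) ⟨ha.2, hr⟩⟩
  have hR : HeightLE 0 R := by
    refine (heightLE_exists (c := 0) (Finset.univ.filter fun p : S × α => g p.2 p.1 = j)
      (fun p => (lset (fun (w : List α) => Avoid g j j w ∧ run g j w = p.1)) * ({[p.2]} : Language α))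
      (fun p _ => (hpre p.1).mul (heightLE_letter p.2))).congr fun w => ?_
    constructor
    · rintro ⟨⟨z, l⟩, hp, hw⟩
      simp only [Finset.mem_filter] at hp
      obtain ⟨u, ⟨hu1, hu2⟩, s, hs, rfl⟩ := Language.mem_mul.mp hw
      rw [mem_singleton_lang] at hs
      subst hs
      exact ⟨by simp, by rw [run_append, hu2]; exact hp.2, u, l, rfl, hu1⟩
    · rintro ⟨-, hr, u, l, rfl, ha⟩
      refine ⟨(run g j u, l), ?_, Language.append_mem_mul ⟨ha, rfl⟩ rfl⟩
      rw [run_append] at hr
      simp only [Finset.mem_filter, Finset.mem_univ, true_and]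
      exact hr
  obtain ⟨P, hP0, hP⟩ := hR
  have hstar : HeightLE 1 (KStar.kstar R) := ⟨P.star, by simp [GenExpr.height]; omega, by
    simp [GenExpr.lang, hP]⟩
  refine (hstar.mul ((hpre y).mono (Nat.zero_le 1))).congr fun w => ?_
  constructor
  · intro hw
    obtain ⟨u, hu, v, ⟨-, hv⟩, rfl⟩ := Language.mem_mul.mp hw
    obtain ⟨L, rfl, hL⟩ := Language.mem_kstar.mp hu
    have : ∀ L : List (List α), (∀ t ∈ L, t ∈ R) → run g j L.flatten = j := by
      intro L
      induction L with
      | nil => intro _; rfl
      | cons t L ihL =>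
        intro h
        rw [List.flatten_cons, run_append, (h t (by simp)).2.1]
        exact ihL fun t' ht' => h t' (by simp [ht'])
    show run g j (L.flatten ++ v) = y
    rw [run_append, this L hL]
    exact hv
  · intro hw
    have split : ∀ N : ℕ, ∀ w : List α, w.length ≤ N →
        ∃ u v, w = u ++ v ∧ u ∈ KStar.kstar R ∧ Avoid g j j v ∧ run g j u = j := by
      intro N
      induction N with
      | zero =>
        intro w hw
        refine ⟨[], w, rfl, Language.nil_mem_kstar _, ?_, rfl⟩
        rw [List.length_eq_zero_iff.mp (Nat.le_zero.mp hw)]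
        trivial
      | succ N ihN =>
        intro w hw
        rcases first_hit g j j w with h | ⟨p, l, q, rfl, h1, h2⟩
        · exact ⟨[], w, rfl, Language.nil_mem_kstar _, h, rfl⟩
        · obtain ⟨u, v, rfl, hu, hv, hr⟩ := ihN q (by simp at hw; omega)
          have hrun : run g j (p ++ [l]) = j := by rw [run_append]; exact h2
          refine ⟨(p ++ [l]) ++ u, v, by simp, ?_, hv, by rw [run_append, hrun, hr]⟩
          obtain ⟨L, rfl, hL⟩ := Language.mem_kstar.mp hu
          refine Language.mem_kstar.mpr ⟨(p ++ [l]) :: L, by simp, ?_⟩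
          intro t ht
          rcases List.mem_cons.mp ht with rfl | ht
          · exact ⟨by simp, hrun, p, l, rfl, h1⟩
          · exact hL t ht
    obtain ⟨u, v, rfl, hu, hv, hr⟩ := split w.length w le_rfl
    refine Language.append_mem_mul hu ⟨hv, ?_⟩
    have : run g j (u ++ v) = y := hw
    rwa [run_append, hr] at this

/-! ### The two generators of a symmetric group -/

variable {k : ℕ}

/-- The two letters: the full cycle, and the cycle of all points but `0`. -/
def letterPerm (k : ℕ) : Bool → Equiv.Perm (Fin (k + 2))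
  | false => finRotate (k + 2)
  | true => Equiv.swap 0 1 * finRotate (k + 2)

/-- The permutation of a word, the first letter acting first. -/
def wordPerm (k : ℕ) : List Bool → Equiv.Perm (Fin (k + 2))
  | [] => 1
  | l :: w => wordPerm k w * letterPerm k l

theorem wordPerm_append (u v : List Bool) :
    wordPerm k (u ++ v) = wordPerm k v * wordPerm k u := by
  induction u with
  | nil => simp [wordPerm]
  | cons l u ih => simp [wordPerm, ih, mul_assoc]

theorem wordPerm_apply (x : Fin (k + 2)) : ∀ w, wordPerm k w x = run (fun l => letterPerm k l) x w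
  | [] => rfl
  | l :: w => by
    show wordPerm k w (letterPerm k l x) = _
    rw [wordPerm_apply _ w]
    rfl

theorem wordPerm_surjective : Function.Surjective (wordPerm k) := by
  intro σ
  let G : Submonoid (Equiv.Perm (Fin (k + 2))) :=
    { carrier := Set.range (wordPerm k)
      one_mem' := ⟨[], rfl⟩
      mul_mem' := by
        rintro _ _ ⟨u, rfl⟩ ⟨v, rfl⟩
        exact ⟨v ++ u, wordPerm_append v u⟩ }
  have hG : Submonoid.closure (Set.range (letterPerm k)) ≤ G := by
    rw [Submonoid.closure_le]
    rintro _ ⟨l, rfl⟩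
    exact ⟨[l], by simp [wordPerm]⟩
  apply hG
  rw [← Subgroup.closure_toSubmonoid_of_finite]
  have top : Subgroup.closure (Set.range (letterPerm k)) = ⊤ := by
    have hswap : Equiv.swap (0 : Fin (k + 2)) (finRotate (k + 2) 0) ∈
        Subgroup.closure (Set.range (letterPerm k)) := by
      have h1 : letterPerm k true ∈ Subgroup.closure (Set.range (letterPerm k)) :=
        Subgroup.subset_closure ⟨true, rfl⟩
      have h2 : letterPerm k false ∈ Subgroup.closure (Set.range (letterPerm k)) :=
        Subgroup.subset_closure ⟨false, rfl⟩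
      have := Subgroup.mul_mem _ h1 (Subgroup.inv_mem _ h2)
      simpa [letterPerm, mul_assoc] using this
    rw [eq_top_iff, ← Equiv.Perm.closure_cycle_adjacent_swap (isCycle_finRotate)
      (support_finRotate) (0 : Fin (k + 2)), Subgroup.closure_le]
    intro τ hτ
    rcases hτ with rfl | rfl
    · exact Subgroup.subset_closure ⟨false, rfl⟩
    · exact hswap
  show σ ∈ (Subgroup.closure (Set.range (letterPerm k))).toSubmonoid
  rw [top]
  trivial

theorem letter_val (l : Bool) (x : Fin (k + 2)) :
    (letterPerm k l x : ℕ) =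
      if x.val = k + 1 then (if l then 1 else 0)
      else if x.val = 0 ∧ l = true then 0 else x.val + 1 := by
  have hrot : (finRotate (k + 2) x : ℕ) = if x.val = k + 1 then 0 else x.val + 1 := by
    rw [coe_finRotate]
    by_cases h : x = Fin.last (k + 1)
    · simp [h]
    · have : x.val ≠ k + 1 := fun e => h (Fin.ext e)
      simp [h, this]
  cases l with
  | false => simpa [letterPerm] using hrot
  | true =>
    simp only [letterPerm, Equiv.Perm.mul_apply, Equiv.swap_apply_def, Fin.ext_iff, Fin.val_zero,
      Fin.val_one, hrot]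
    have := x.isLt
    split_ifs <;> simp_all

theorem forward (j : Fin (k + 2)) (hj : j.val ≠ 0) (l : Bool) (x : Fin (k + 2))
    (h1 : x ≠ j) (h2 : letterPerm k l x ≠ j) (h3 : letterPerm k l x ≠ x) :
    (if (letterPerm k l x).val < j.val then j.val - (letterPerm k l x).val
      else j.val + (k + 2) - (letterPerm k l x).val) <
    (if x.val < j.val then j.val - x.val else j.val + (k + 2) - x.val) := by
  have hx := x.isLt
  have hjl := j.isLt
  rw [Ne, Fin.ext_iff] at h1 h2 h3
  have hv := letter_val l x
  rw [hv] at h2 h3 ⊢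
  cases l <;> simp only [Bool.false_eq_true, if_false, if_true, and_false, and_true] at h2 h3 ⊢ <;>
    split_ifs at h2 h3 ⊢ <;> omega

theorem heightLE_wordPerm (X : Set (Equiv.Perm (Fin (k + 2)))) :
    HeightLE 1 (lset (fun (w : List Bool) => wordPerm k w ∈ X)) := by
  classical
  have one : ∀ σ : Equiv.Perm (Fin (k + 2)),
      HeightLE 1 (lset (fun (w : List Bool) => wordPerm k w = σ)) := by
    intro σ
    refine (heightLE_forall (Finset.univ.filter fun j : Fin (k + 2) => j.val ≠ 0)
      (fun j => (lset (fun (w : List Bool) => run (fun l => letterPerm k l) j w = σ j)))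
      (fun j hj => heightLE_run (fun l => letterPerm k l) j
        (fun x => if x.val < j.val then j.val - x.val else j.val + (k + 2) - x.val)
        (fun l x => forward j (by simpa using hj) l x) (σ j))).congr fun w => ?_
    constructor
    · intro h
      have hne : ∀ j : Fin (k + 2), j.val ≠ 0 → wordPerm k w j = σ j := fun j hj => by
        rw [wordPerm_apply]; exact h j (by simpa using hj)
      refine Equiv.ext fun x => ?_
      by_cases hx : x.val = 0
      · obtain ⟨z, hz⟩ := σ.surjective (wordPerm k w x)
        by_cases hz0 : z.val = 0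
        · rw [show x = z from Fin.ext (hx.trans hz0.symm)] at hz ⊢
          exact hz.symm
        · exact absurd ((wordPerm k w).injective ((hne z hz0).trans hz))
            (fun e => hz0 (e ▸ hx))
      · exact hne x hx
    · intro h j _
      show run (fun l => letterPerm k l) j w = σ j
      rw [← wordPerm_apply, show wordPerm k w = σ from h]
  refine (heightLE_exists (Finset.univ.filter fun σ => σ ∈ X)
    (fun σ => (lset (fun (w : List Bool) => wordPerm k w = σ))) (fun σ _ => one σ)).congr fun w => ?_
  constructor
  · rintro ⟨σ, hσ, hw⟩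
    simp only [Finset.mem_filter] at hσ
    show wordPerm k w ∈ X
    rw [show wordPerm k w = σ from hw]
    exact hσ.2
  · intro h
    exact ⟨wordPerm k w, Finset.mem_filter.mpr ⟨Finset.mem_univ _, h⟩, rfl⟩

theorem wordPerm_syntactic {u v : List Bool}
    (h : ∀ p q : List Bool, wordPerm k (p ++ u ++ q) = 1 ↔ wordPerm k (p ++ v ++ q) = 1) :
    wordPerm k u = wordPerm k v := by
  obtain ⟨q, hq⟩ := wordPerm_surjective (k := k) (wordPerm k u)⁻¹
  have h1 : wordPerm k ([] ++ u ++ q) = 1 := by
    simp [wordPerm_append, hq]
  have h2 := (h [] q).mp h1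
  simp only [List.nil_append, wordPerm_append, hq] at h2
  exact (inv_mul_eq_one.mp h2)

end Vale.Agent.P329
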