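import Mathlib.Computability.Language

/-! Generalised regular expressions and their star height. -/

namespace Vale.Agent.P329

/-- Generalised regular expressions over `α`. -/
inductive GenExpr (α : Type) : Type
  | zero : GenExpr α
  | one : GenExpr α
  | letter : α → GenExpr α
  | add : GenExpr α → GenExpr α → GenExpr α
  | mul : GenExpr α → GenExpr α → GenExpr α
  | compl : GenExpr α → GenExpr α
  | star : GenExpr α → GenExpr α

namespace GenExpr

variable {α : Type}

/-- Star height. -/
def height : GenExpr α → ℕ
  | zero => 0
  | one => 0
  | letter _ => 0
  | add P Q => max P.height Q.height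
  | mul P Q => max P.height Q.height
  | compl P => P.height
  | star P => P.height + 1

/-- The denoted language; complement is taken in the set of all words over `α`. -/
def lang : GenExpr α → Language α
  | zero => 0
  | one => 1
  | letter a => {[a]}
  | add P Q => P.lang + Q.lang
  | mul P Q => P.lang * Q.lang
  | compl P => {w | w ∉ P.lang}
  | star P => KStar.kstar P.lang

end GenExpr

/-- `L` has generalised star height at most `c`. -/
def HeightLE {α : Type} (c : ℕ) (L : Language α) : Prop :=
  ∃ P : GenExpr α, P.height ≤ c ∧ P.lang = L

end Vale.Agent.P329
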