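import Mathlib.Computability.DFA
import Mathlib.GroupTheory.SpecificGroups.Alternating.Simple
import Vale.Agent.P329.Forward

/-!
Stars whose languages have small automata, together with Boolean operations and concatenation,
do not produce the identity language of a large symmetric group.
-/

namespace Vale.Agent.P329

/-- Every starred subexpression denotes a language accepted by an automaton with at most `k`
states. -/
def SmallStars {α : Type} (k : ℕ) : GenExpr α → Prop
  | .zero => True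
  | .one => True
  | .letter _ => True
  | .add P Q => SmallStars k P ∧ SmallStars k Q
  | .mul P Q => SmallStars k P ∧ SmallStars k Q
  | .compl P => SmallStars k P
  | .star P => SmallStars k P ∧ ∃ (σ : Type) (_ : Fintype σ) (D : DFA α σ),
      Fintype.card σ ≤ k ∧ D.accepts = (GenExpr.star P).lang

namespace SmallStarProof

variable {α : Type} {G : Type} [Group G]

/-- `L` is recognised by a finite monoid that does not determine `π`. -/
def Blind (π : List α → G) (L : Language α) : Prop :=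
  ∃ (M : Type) (_ : Monoid M) (_ : Finite M) (φ : List α → M) (X : Set M),
    (∀ u v, φ (u ++ v) = φ u * φ v) ∧ (∀ w, w ∈ L ↔ φ w ∈ X) ∧ ∃ u v, φ u = φ v ∧ π u ≠ π v

theorem exists_idempotent_pow {M : Type} [Monoid M] [Finite M] (x : M) :
    ∃ n : ℕ, 2 ≤ n ∧ x ^ n * x ^ n = x ^ n := by
  obtain ⟨i, j, hne, h⟩ := Finite.exists_ne_map_eq_of_infinite (fun n : ℕ => x ^ n)
  wlog hij : i < j generalizing i j
  · exact this j i hne.symm h.symm (lt_of_le_of_ne (not_lt.mp hij) hne.symm)
  obtain ⟨d, rfl⟩ : ∃ d, j = i + (d + 1) := ⟨j - i - 1, by omega⟩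
  have step : ∀ t m, i ≤ m → x ^ (m + t * (d + 1)) = x ^ m := by
    intro t
    induction t with
    | zero => intro m _; simp
    | succ t ih =>
      intro m hm
      obtain ⟨c, rfl⟩ := Nat.exists_eq_add_of_le hm
      calc x ^ (i + c + (t + 1) * (d + 1)) = x ^ (i + c + (d + 1) + t * (d + 1)) := by ring_nf
        _ = x ^ (i + c + (d + 1)) := ih _ (by omega)
        _ = x ^ (i + (d + 1)) * x ^ c := by rw [← pow_add]; ring_nf
        _ = x ^ (i + c) := by rw [← h, ← pow_add]
  refine ⟨(i + 2) * (d + 1), ?_, ?_⟩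
  · calc 2 ≤ i + 2 := by omega
      _ = (i + 2) * 1 := (Nat.mul_one _).symm
      _ ≤ (i + 2) * (d + 1) := Nat.mul_le_mul_left _ (by omega)
  · rw [← pow_add]
    apply step
    calc i ≤ i + 2 := by omega
      _ = (i + 2) * 1 := (Nat.mul_one _).symm
      _ ≤ (i + 2) * (d + 1) := Nat.mul_le_mul_left _ (by omega)

/-- Two commuting normal subgroups are never both nontrivial. -/
def Separating (G : Type) [Group G] : Prop :=
  ∀ A B : Subgroup G, A.Normal → B.Normal → (∀ a ∈ A, ∀ b ∈ B, a * b = b * a) → A = ⊥ ∨ B = ⊥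

theorem split_blind (hG : Separating G) (π : List α → G)
    (hπ : ∀ u v, π (u ++ v) = π u * π v) (hs : Function.Surjective π)
    {M M₁ M₂ : Type} [Monoid M] [Finite M] [Monoid M₁] [Monoid M₂]
    (φ : List α → M) (hφ : ∀ u v, φ (u ++ v) = φ u * φ v)
    (p₁ : M →ₙ* M₁) (p₂ : M →ₙ* M₂)
    (hker : ∀ e x y : M, e * e = e → e * x = x → x * e = x → e * y = y → x * y = e →
      p₁ x = p₁ e → p₂ x = p₂ e → x = e)
    (b₁ : ∃ u v, p₁ (φ u) = p₁ (φ v) ∧ π u ≠ π v)
    (b₂ : ∃ u v, p₂ (φ u) = p₂ (φ v) ∧ π u ≠ π v) :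
    ∃ u v, φ u = φ v ∧ π u ≠ π v := by
  by_contra hcon
  push Not at hcon
  classical
  let size : List α → ℕ := fun w => (Set.range fun x => φ w * φ x * φ w).ncard
  have hex : ∃ n, ∃ w, φ w * φ w = φ w ∧ size w = n := ⟨_, [], by rw [← hφ]; rfl, rfl⟩
  obtain ⟨w₀, he, hw₀⟩ := Nat.find_spec hex
  have hmin : ∀ w, φ w * φ w = φ w → size w₀ ≤ size w := fun w hw => by
    rw [hw₀]; exact Nat.find_min' hex ⟨w, hw, rfl⟩
  set e := φ w₀ with hedef
  have π₀ : π w₀ = 1 := by
    have h := hcon (w₀ ++ w₀) w₀ (by rw [hφ]; exact he)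
    rw [hπ] at h
    exact mul_left_cancel (h.trans (mul_one _).symm)
  let g : List α → M := fun x => e * φ x * e
  have ge : ∀ x, e * g x = g x := fun x => by simp only [g, ← mul_assoc, he]
  have eg : ∀ x, g x * e = g x := fun x => by simp only [g, mul_assoc, he]
  have gw : ∀ x, g x = φ (w₀ ++ x ++ w₀) := fun x => by rw [hφ, hφ]
  have gmul : ∀ x y, g x * g y = g (x ++ w₀ ++ y) := fun x y => by
    simp only [g, hφ, ← hedef, mul_assoc]
    rw [← mul_assoc e e, he]
  have πg : ∀ x, π (w₀ ++ x ++ w₀) = π x := fun x => by simp [hπ, π₀]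
  have gπ : ∀ x y, g x = g y → π x = π y := fun x y h => by
    rw [← πg x, ← πg y]; exact hcon _ _ (by rw [← gw, ← gw, h])
  have πmul : ∀ x y, π (x ++ w₀ ++ y) = π x * π y := fun x y => by simp [hπ, π₀]
  have ge₀ : g w₀ = e := by simp only [g, ← hedef, he]
  have powers : ∀ x, ∀ n : ℕ, ∃ y, g y = g x ^ (n + 1) := by
    intro x n
    induction n with
    | zero => exact ⟨x, (pow_one _).symm⟩
    | succ n ih =>
      obtain ⟨y, hy⟩ := ih
      exact ⟨y ++ w₀ ++ x, by rw [← gmul, hy, ← pow_succ]⟩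
  have inv : ∀ x, ∃ y, g x * g y = e ∧ g y * g x = e := by
    intro x
    obtain ⟨n, hn, hidem⟩ := exists_idempotent_pow (g x)
    obtain ⟨m, rfl⟩ := Nat.exists_eq_add_of_le hn
    obtain ⟨d, hd⟩ := powers x (m + 1)
    have hd' : g d * g d = g d := by
      rw [hd, show m + 1 + 1 = 2 + m by omega]; exact hidem
    have hfd : φ (w₀ ++ d ++ w₀) * φ (w₀ ++ d ++ w₀) = φ (w₀ ++ d ++ w₀) := by
      rw [← gw]; exact hd'
    have sub : (Set.range fun y => φ (w₀ ++ d ++ w₀) * φ y * φ (w₀ ++ d ++ w₀)) ⊆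
        Set.range fun y => φ w₀ * φ y * φ w₀ := by
      rintro _ ⟨y, rfl⟩
      refine ⟨d ++ w₀ ++ y ++ w₀ ++ d, ?_⟩
      simp only [hφ, mul_assoc]
    have heq := Set.eq_of_subset_of_ncard_le sub (hmin _ hfd) (Set.toFinite _)
    have hmem : e ∈ Set.range fun y => φ (w₀ ++ d ++ w₀) * φ y * φ (w₀ ++ d ++ w₀) := by
      rw [heq]; exact ⟨w₀, by simp only [← hedef, he]⟩
    obtain ⟨y, hy⟩ := hmem
    simp only [← gw] at hy
    have hde : g d = e := by
      calc g d = e * g d := (ge d).symm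
        _ = g d * φ y * g d * g d := by rw [hy]
        _ = g d * φ y * g d := by rw [mul_assoc, hd']
        _ = e := hy
    obtain ⟨z, hz⟩ := powers x m
    refine ⟨z, ?_, ?_⟩
    · rw [hz, ← pow_succ', ← hd, hde]
    · rw [hz, ← pow_succ, ← hd, hde]
  have πinv : ∀ x y, g x * g y = e → π y = (π x)⁻¹ := fun x y h => by
    refine eq_inv_of_mul_eq_one_right ?_
    rw [← πmul, ← π₀]
    exact gπ _ _ (by rw [← gmul, h, ge₀])
  have one_eq : (1 : G) = π w₀ := π₀.symm
  have mk : ∀ {N : Type} [Monoid N] (p : M →ₙ* N), ∃ A : Subgroup G, A.Normal ∧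
      (∀ a ∈ A, ∃ x, π x = a ∧ p (g x) = p e) ∧
      ((∃ u v, p (φ u) = p (φ v) ∧ π u ≠ π v) → A ≠ ⊥) := by
    intro N _ p
    have pinv : ∀ x y, g x * g y = e → p (g x) = p e → p (g y) = p e := fun x y h hx => by
      have h2 : p (g x) * p (g y) = p e := by rw [← map_mul, h]
      rwa [hx, ← map_mul, ge] at h2
    let A : Subgroup G :=
      { carrier := {a | ∃ x, π x = a ∧ p (g x) = p e}
        one_mem' := ⟨w₀, π₀, by rw [ge₀]⟩
        mul_mem' := by
          rintro _ _ ⟨x, rfl, hx⟩ ⟨y, rfl, hy⟩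
          exact ⟨x ++ w₀ ++ y, πmul x y, by rw [← gmul, map_mul, hx, hy, ← map_mul, he]⟩
        inv_mem' := by
          rintro _ ⟨x, rfl, hx⟩
          obtain ⟨y, hy, -⟩ := inv x
          exact ⟨y, πinv x y hy, pinv x y hy hx⟩ }
    refine ⟨A, ⟨?_⟩, fun a ha => ha, ?_⟩
    · rintro _ ⟨x, rfl, hx⟩ c
      obtain ⟨z, rfl⟩ := hs c
      obtain ⟨y, hy, -⟩ := inv z
      refine ⟨z ++ w₀ ++ x ++ w₀ ++ y, by rw [πmul, πmul, πinv z y hy], ?_⟩
      rw [← gmul, ← gmul, map_mul, map_mul, hx, ← map_mul, eg, ← map_mul, hy]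
    · rintro ⟨u, v, huv, hne⟩ hbot
      obtain ⟨y, hy, -⟩ := inv v
      have : π (u ++ w₀ ++ y) ∈ A := by
        refine ⟨_, rfl, ?_⟩
        rw [← gmul, map_mul]
        have : p (g u) = p (g v) := by simp only [g, map_mul, huv]
        rw [this, ← map_mul, hy]
      rw [hbot, Subgroup.mem_bot, πmul, πinv v y hy, mul_inv_eq_one] at this
      exact hne this
  obtain ⟨A, hA, hA', hA''⟩ := mk p₁
  obtain ⟨B, hB, hB', hB''⟩ := mk p₂
  refine (hG A B hA hB ?_).elim (hA'' b₁) (hB'' b₂)
  intro a ha b hb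
  obtain ⟨x, rfl, hx⟩ := hA' a ha
  obtain ⟨y, rfl, hy⟩ := hB' b hb
  obtain ⟨z, hz, -⟩ := inv (y ++ w₀ ++ x)
  obtain ⟨z', hz', -⟩ := inv (x ++ w₀ ++ y ++ w₀ ++ z)
  have h₁ : p₁ (g x * g y) = p₁ (g y * g x) := by
    rw [map_mul p₁ (g x) (g y), map_mul p₁ (g y) (g x), hx, ← map_mul p₁ e, ← map_mul p₁ (g y) e,
      ge, eg]
  have h₂ : p₂ (g x * g y) = p₂ (g y * g x) := by
    rw [map_mul p₂ (g x) (g y), map_mul p₂ (g y) (g x), hy, ← map_mul p₂ e, ← map_mul p₂ (g x) e,
      ge, eg]
  have hk := hker e (g (x ++ w₀ ++ y ++ w₀ ++ z)) (g z') he (ge _) (eg _) (ge _) hz'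
    (by rw [← gmul, ← gmul, map_mul, h₁, ← map_mul, gmul, hz])
    (by rw [← gmul, ← gmul, map_mul, h₂, ← map_mul, gmul, hz])
  have h3 := gπ _ w₀ (by rw [hk, ge₀])
  rw [πmul, πinv _ z hz, π₀, mul_inv_eq_one] at h3
  rw [← πmul, ← πmul]
  exact h3

/-- The concatenation product of two monoids. -/
structure Cat (M₁ M₂ : Type) where
  left : M₁
  cuts : Set (M₁ × M₂)
  right : M₂

namespace Cat

variable {M₁ M₂ : Type} [Monoid M₁] [Monoid M₂]

@[ext] theorem ext' {x y : Cat M₁ M₂} (h₁ : x.left = y.left) (h₂ : x.cuts = y.cuts)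
    (h₃ : x.right = y.right) : x = y := by
  cases x; cases y; simp_all

instance : Monoid (Cat M₁ M₂) where
  mul x y := ⟨x.left * y.left,
    ((fun c => (x.left * c.1, c.2)) '' y.cuts) ∪ ((fun c => (c.1, c.2 * y.right)) '' x.cuts),
    x.right * y.right⟩
  one := ⟨1, ∅, 1⟩
  mul_assoc x y z := by
    refine ext' (mul_assoc x.left y.left z.left) ?_ (mul_assoc x.right y.right z.right)
    show ((fun c : M₁ × M₂ => ((x.left * y.left) * c.1, c.2)) '' z.cuts) ∪
        ((fun c : M₁ × M₂ => (c.1, c.2 * z.right)) ''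
          (((fun c : M₁ × M₂ => (x.left * c.1, c.2)) '' y.cuts) ∪
            ((fun c : M₁ × M₂ => (c.1, c.2 * y.right)) '' x.cuts))) =
      ((fun c : M₁ × M₂ => (x.left * c.1, c.2)) ''
          (((fun c : M₁ × M₂ => (y.left * c.1, c.2)) '' z.cuts) ∪
            ((fun c : M₁ × M₂ => (c.1, c.2 * z.right)) '' y.cuts))) ∪
        ((fun c : M₁ × M₂ => (c.1, c.2 * (y.right * z.right))) '' x.cuts)
    simp only [Set.image_union, Set.image_image, mul_assoc, Set.union_assoc]
  one_mul x := by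
    refine ext' (one_mul x.left) ?_ (one_mul x.right)
    show ((fun c : M₁ × M₂ => (1 * c.1, c.2)) '' x.cuts) ∪
      ((fun c : M₁ × M₂ => (c.1, c.2 * x.right)) '' ∅) = x.cuts
    simp
  mul_one x := by
    refine ext' (mul_one x.left) ?_ (mul_one x.right)
    show ((fun c : M₁ × M₂ => (x.left * c.1, c.2)) '' ∅) ∪
      ((fun c : M₁ × M₂ => (c.1, c.2 * 1)) '' x.cuts) = x.cuts
    simp

theorem mul_left' (x y : Cat M₁ M₂) : (x * y).left = x.left * y.left := rfl

theorem mul_right' (x y : Cat M₁ M₂) : (x * y).right = x.right * y.right := rfl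

theorem mul_cuts (x y : Cat M₁ M₂) : (x * y).cuts =
    ((fun c => (x.left * c.1, c.2)) '' y.cuts) ∪ ((fun c => (c.1, c.2 * y.right)) '' x.cuts) :=
  rfl

instance [Finite M₁] [Finite M₂] : Finite (Cat M₁ M₂) :=
  Finite.of_injective (fun x : Cat M₁ M₂ => (x.left, x.cuts, x.right))
    (fun x y h => by simp only [Prod.mk.injEq] at h; exact ext' h.1 h.2.1 h.2.2)

theorem kernel (e x y : Cat M₁ M₂) (he : e * e = e) (hex : e * x = x) (hxe : x * e = x)
    (hey : e * y = y) (hxy : x * y = e) (h₁ : x.left = e.left) (h₂ : x.right = e.right) :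
    x = e := by
  have hy : y.right = e.right := by
    have a := congrArg Cat.right hxy
    have b := congrArg Cat.right hey
    rw [mul_right', h₂] at a
    rw [mul_right'] at b
    rw [← b]; exact a
  have a := congrArg Cat.cuts hex
  have b := congrArg Cat.cuts hxe
  have c := congrArg Cat.cuts hxy
  have d := congrArg Cat.cuts he
  rw [mul_cuts] at a b c d
  rw [h₂] at a
  rw [h₁] at b
  rw [hy] at c
  refine ext' h₁ (Set.Subset.antisymm ?_ ?_) h₂
  · rw [← b]
    refine Set.union_subset ?_ ?_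
    · exact Set.subset_union_left.trans d.le
    · exact Set.subset_union_right.trans c.le
  · rw [← d]
    refine Set.union_subset ?_ ?_
    · exact Set.subset_union_left.trans b.le
    · exact Set.subset_union_right.trans a.le

end Cat

variable (π : List α → G)

theorem Blind.union (hG : Separating G) (hπ : ∀ u v, π (u ++ v) = π u * π v)
    (hs : Function.Surjective π) {L L' : Language α} (h : Blind π L) (h' : Blind π L') :
    Blind π (L + L') := by
  obtain ⟨M₁, i₁, j₁, φ₁, X₁, m₁, r₁, b₁⟩ := h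
  obtain ⟨M₂, i₂, j₂, φ₂, X₂, m₂, r₂, b₂⟩ := h'
  have hφ : ∀ u v, (φ₁ (u ++ v), φ₂ (u ++ v)) = (φ₁ u, φ₂ u) * (φ₁ v, φ₂ v) := fun u v => by
    rw [m₁, m₂, Prod.mk_mul_mk]
  refine ⟨M₁ × M₂, inferInstance, inferInstance, fun w => (φ₁ w, φ₂ w),
    {p | p.1 ∈ X₁ ∨ p.2 ∈ X₂}, hφ, fun w => ?_,
    split_blind hG π hπ hs _ hφ (⟨Prod.fst, fun _ _ => rfl⟩ : M₁ × M₂ →ₙ* M₁)
      (⟨Prod.snd, fun _ _ => rfl⟩ : M₁ × M₂ →ₙ* M₂)
      (fun e x _ _ _ _ _ _ a b => Prod.ext a b) b₁ b₂⟩
  rw [Language.mem_add, r₁, r₂]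
  rfl

theorem Blind.cat (hG : Separating G) (hπ : ∀ u v, π (u ++ v) = π u * π v)
    (hs : Function.Surjective π) {L L' : Language α} (h : Blind π L) (h' : Blind π L') :
    Blind π (L * L') := by
  obtain ⟨M₁, i₁, j₁, φ₁, X₁, m₁, r₁, b₁⟩ := h
  obtain ⟨M₂, i₂, j₂, φ₂, X₂, m₂, r₂, b₂⟩ := h'
  let φ : List α → Cat M₁ M₂ := fun w =>
    ⟨φ₁ w, {c | ∃ a b, a ++ b = w ∧ c = (φ₁ a, φ₂ b)}, φ₂ w⟩
  have hφ : ∀ u v, φ (u ++ v) = φ u * φ v := by
    intro u v
    refine Cat.ext' (m₁ u v) ?_ (m₂ u v)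
    rw [Cat.mul_cuts]
    ext c
    simp only [φ, Set.mem_setOf_eq, Set.mem_union, Set.mem_image]
    constructor
    · rintro ⟨a, b, hab, rfl⟩
      rcases List.append_eq_append_iff.mp hab with ⟨t, hu, hb⟩ | ⟨t, ha, hv⟩
      · right
        exact ⟨_, ⟨a, t, hu.symm, rfl⟩, by rw [hb, m₂]⟩
      · left
        exact ⟨_, ⟨t, b, hv.symm, rfl⟩, by rw [ha, m₁]⟩
    · rintro (⟨_, ⟨a, b, rfl, rfl⟩, rfl⟩ | ⟨_, ⟨a, b, rfl, rfl⟩, rfl⟩)
      · exact ⟨u ++ a, b, by simp, by rw [m₁]⟩
      · exact ⟨a, b ++ v, by simp, by rw [m₂]⟩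
  refine ⟨Cat M₁ M₂, inferInstance, inferInstance, φ,
    {p | ∃ c ∈ p.cuts, c.1 ∈ X₁ ∧ c.2 ∈ X₂}, hφ, fun w => ?_,
    split_blind hG π hπ hs φ hφ (⟨Cat.left, fun _ _ => rfl⟩ : Cat M₁ M₂ →ₙ* M₁)
      (⟨Cat.right, fun _ _ => rfl⟩ : Cat M₁ M₂ →ₙ* M₂) Cat.kernel b₁ b₂⟩
  simp only [φ, Language.mem_mul, Set.mem_setOf_eq, r₁, r₂]
  constructor
  · rintro ⟨a, ha, b, hb, e⟩
    exact ⟨_, ⟨a, b, e, rfl⟩, ha, hb⟩
  · rintro ⟨_, ⟨a, b, e, rfl⟩, ha, hb⟩
    exact ⟨a, ha, b, hb, e⟩

theorem Blind.dfa (hs : Function.Surjective π) [Finite G] {σ : Type} [Fintype σ] {k : ℕ}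
    (D : DFA α σ) (hk : Fintype.card σ ≤ k) (hG : k ^ k + 1 < Nat.card G) :
    Blind π D.accepts := by
  classical
  let φ : List α → (Function.End σ)ᵐᵒᵖ := fun w =>
    MulOpposite.op (fun s : σ => D.evalFrom s w)
  haveI : Finite (Function.End σ) := inferInstanceAs (Finite (σ → σ))
  haveI : Finite (Function.End σ)ᵐᵒᵖ := Finite.of_equiv _ MulOpposite.opEquiv
  refine ⟨_, inferInstance, inferInstance, φ, {f | f.unop D.start ∈ D.accept}, fun u v => ?_,
    fun w => Iff.rfl, ?_⟩
  · refine MulOpposite.unop_injective (funext fun s => ?_)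
    exact D.evalFrom_of_append s u v
  · by_contra hcon
    push Not at hcon
    have hinj : Function.Injective fun g : G => φ (Function.surjInv hs g) := fun a b hab => by
      have := hcon _ _ hab
      rwa [Function.surjInv_eq hs, Function.surjInv_eq hs] at this
    have h1 := Nat.card_le_card_of_injective _ hinj
    have h2 : Nat.card (Function.End σ)ᵐᵒᵖ = Fintype.card σ ^ Fintype.card σ := by
      rw [Nat.card_congr MulOpposite.opEquiv.symm,
        show Nat.card (Function.End σ) = Nat.card (σ → σ) from rfl, Nat.card_eq_fintype_card,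
        Fintype.card_fun]
    rcases Nat.eq_zero_or_pos (Fintype.card σ) with h0 | hpos
    · rw [h2, h0, pow_zero] at h1; omega
    · have : Fintype.card σ ^ Fintype.card σ ≤ k ^ k :=
        (Nat.pow_le_pow_left hk _).trans (Nat.pow_le_pow_right (by omega) hk)
      omega

theorem blind_lang (hG : Separating G) [Finite G] (hπ : ∀ u v, π (u ++ v) = π u * π v)
    (hs : Function.Surjective π) {k : ℕ} (hk : 3 ≤ k) (hc : k ^ k + 1 < Nat.card G) :
    ∀ P : GenExpr α, SmallStars k P → Blind π P.lang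
  | .zero, _ => by
    let D : DFA α Unit := ⟨fun _ _ => (), (), ∅⟩
    have e : D.accepts = GenExpr.lang GenExpr.zero :=
      Set.ext fun w => iff_of_false id (Language.notMem_zero w)
    rw [← e]
    exact Blind.dfa π hs D (by simp; omega) hc
  | .one, _ => by
    let D : DFA α Bool := ⟨fun _ _ => false, true, {true}⟩
    have e : D.accepts = GenExpr.lang GenExpr.one := by
      have key : ∀ w : List α, D.evalFrom false w = false := fun w => by
        induction w with
        | nil => rfl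
        | cons a w ih => exact ih
      refine Language.ext fun w => ?_
      rw [DFA.mem_accepts]
      show D.evalFrom true w ∈ ({true} : Set Bool) ↔ w ∈ (1 : Language α)
      rw [Language.mem_one]
      cases w with
      | nil => simp
      | cons a w => show D.evalFrom false w ∈ _ ↔ _; simp [key]
    rw [← e]
    exact Blind.dfa π hs D (by simp; omega) hc
  | .letter a, _ => by
    classical
    let D : DFA α (Option Bool) :=
      ⟨fun s b => if s = some false ∧ b = a then some true else none, some false, {some true}⟩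
    have e : D.accepts = GenExpr.lang (GenExpr.letter a) := by
      have key : ∀ w : List α, D.evalFrom none w = none := fun w => by
        induction w with
        | nil => rfl
        | cons b w ih => exact ih
      refine Language.ext fun w => ?_
      rw [DFA.mem_accepts]
      show D.evalFrom (some false) w ∈ ({some true} : Set _) ↔ w ∈ ({[a]} : Language α)
      rw [mem_singleton_lang, Set.mem_singleton_iff]
      match w with
      | [] => simp [DFA.evalFrom]
      | [b] => by_cases h : b = a <;> simp [DFA.evalFrom, D, h]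
      | b :: c :: t =>
        show D.evalFrom (D.step (D.step (some false) b) c) t = _ ↔ _
        have : D.step (D.step (some false) b) c = none := by
          by_cases h : b = a <;> simp [D, h]
        simp [this, key]
    rw [← e]
    exact Blind.dfa π hs D (by simp; omega) hc
  | .add P Q, h => Blind.union π hG hπ hs (blind_lang hG hπ hs hk hc P h.1)
      (blind_lang hG hπ hs hk hc Q h.2)
  | .mul P Q, h => Blind.cat π hG hπ hs (blind_lang hG hπ hs hk hc P h.1)
      (blind_lang hG hπ hs hk hc Q h.2)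
  | .compl P, h => by
    obtain ⟨M, i, j, φ, X, m, r, b⟩ := blind_lang hG hπ hs hk hc P h
    exact ⟨M, i, j, φ, Xᶜ, m, fun w => not_congr (r w), b⟩
  | .star _, h => by
    obtain ⟨-, σ, i, D, hD, e⟩ := h
    rw [← e]
    exact Blind.dfa π hs D hD hc

theorem separating_perm (n : ℕ) (hn : 5 ≤ n) : Separating (Equiv.Perm (Fin n)) := by
  intro A B hA hB hcomm
  by_contra h
  push Not at h
  have h5 : 5 ≤ Nat.card (Fin n) := by simpa using hn
  have hAle := Equiv.Perm.alternatingGroup_le_of_normal h5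
    ((Subgroup.nontrivial_iff_ne_bot A).mpr h.1)
  have hBle := Equiv.Perm.alternatingGroup_le_of_normal h5
    ((Subgroup.nontrivial_iff_ne_bot B).mpr h.2)
  have htop : Subgroup.center (alternatingGroup (Fin n)) = ⊤ := by
    rw [eq_top_iff]
    intro x _
    rw [Subgroup.mem_center_iff]
    intro y
    exact Subtype.ext (hcomm _ (hAle y.2) _ (hBle x.2))
  rw [alternatingGroup.center_eq_bot (by simp; omega)] at htop
  haveI : Nontrivial (alternatingGroup (Fin n)) :=
    alternatingGroup.nontrivial_of_three_le_card (by simp; omega)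
  exact bot_ne_top htop

end SmallStarProof

open SmallStarProof

theorem exists_height_one_without_small_stars (k : ℕ) :
    ∃ L : Language Bool, L.IsRegular ∧ HeightLE 1 L ∧
      ∀ P : GenExpr Bool, P.lang = L → ¬ SmallStars k P := by
  classical
  let K := k + 3
  let m := K ^ K + 3
  let π : List Bool → Equiv.Perm (Fin (m + 2)) := fun w => (wordPerm m w)⁻¹
  have hπ : ∀ u v, π (u ++ v) = π u * π v := fun u v => by
    simp only [π, wordPerm_append, mul_inv_rev]
  have hs : Function.Surjective π := fun g => by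
    obtain ⟨w, hw⟩ := wordPerm_surjective (k := m) g⁻¹
    exact ⟨w, by simp only [π, hw, inv_inv]⟩
  have hc : K ^ K + 1 < Nat.card (Equiv.Perm (Fin (m + 2))) := by
    rw [Nat.card_perm, Nat.card_fin]
    have := Nat.self_le_factorial (m + 2)
    omega
  refine ⟨lset (fun w => wordPerm m w ∈ ({1} : Set (Equiv.Perm (Fin (m + 2))))), ?_,
    heightLE_wordPerm _, ?_⟩
  · let D : DFA Bool (Equiv.Perm (Fin (m + 2))) :=
      ⟨fun s l => letterPerm m l * s, 1, {1}⟩
    refine ⟨_, inferInstance, D, ?_⟩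
    have key : ∀ (w : List Bool) (s : Equiv.Perm (Fin (m + 2))),
        D.evalFrom s w = wordPerm m w * s := by
      intro w
      induction w with
      | nil => intro s; simp [wordPerm, DFA.evalFrom]
      | cons l w ih =>
        intro s
        show D.evalFrom (letterPerm m l * s) w = _
        rw [ih, ← mul_assoc]
        rfl
    refine Language.ext fun w => ?_
    rw [DFA.mem_accepts]
    show D.evalFrom 1 w ∈ ({1} : Set _) ↔ _
    rw [key, mul_one]
    rfl
  · intro P hP hsm
    have mono : ∀ Q : GenExpr Bool, SmallStars k Q → SmallStars K Q := by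
      intro Q
      induction Q with
      | zero | one | letter _ => exact id
      | add _ _ i j | mul _ _ i j => exact fun h => ⟨i h.1, j h.2⟩
      | compl _ i => exact i
      | star _ i =>
        rintro ⟨h, σ, f, D, hD, e⟩
        exact ⟨i h, σ, f, D, hD.trans (by omega), e⟩
    obtain ⟨M, _, _, φ, X, hφ, hr, u, v, huv, hne⟩ :=
      blind_lang π (separating_perm _ (by omega)) hπ hs (by omega) hc P (mono P hsm)
    refine hne (congrArg (·⁻¹) (wordPerm_syntactic fun p q => ?_))
    have h1 := hr (p ++ u ++ q)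
    have h2 := hr (p ++ v ++ q)
    rw [hP] at h1 h2
    rw [hφ, hφ, huv, ← hφ, ← hφ] at h1
    exact h1.trans h2.symm

end Vale.Agent.P329
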