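import Mathlib.Computability.MyhillNerode
import Mathlib.GroupTheory.GroupAction.Defs
import Vale.Agent.P329.SmallStars

/-!
For a group in which two commuting normal subgroups are never both nontrivial, height one of its
word language is decided by the syntactic congruence of a single star of a star-free language.
-/

namespace Vale.Agent.P329

open SmallStarProof

variable {α : Type}

/-- The syntactic congruence of a language. -/
def SynEq (L : Language α) (u v : List α) : Prop :=
  ∀ p q : List α, p ++ u ++ q ∈ L ↔ p ++ v ++ q ∈ L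

namespace OneStar

/-- The left derivative of an expression by a letter. -/
noncomputable def der (a : α) : GenExpr α → GenExpr α
  | .zero => .zero
  | .one => .zero
  | .letter b => open Classical in if a = b then .one else .zero
  | .add P Q => .add (der a P) (der a Q)
  | .mul P Q => open Classical in
      if [] ∈ P.lang then .add (.mul (der a P) Q) (der a Q) else .mul (der a P) Q
  | .compl P => .compl (der a P)
  | .star P => .mul (der a P) (.star P)

theorem height_der (a : α) : ∀ P : GenExpr α, (der a P).height ≤ P.height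
  | .zero => le_rfl
  | .one => le_rfl
  | .letter b => by
    simp only [der]
    split_ifs <;> simp [GenExpr.height]
  | .add P Q => max_le_max (height_der a P) (height_der a Q)
  | .mul P Q => by
    have h1 := height_der a P
    have h2 := height_der a Q
    simp only [der]
    split_ifs <;> simp only [GenExpr.height] <;> omega
  | .compl P => height_der a P
  | .star P => by
    have h1 := height_der a P
    simp only [der, GenExpr.height]
    omega

theorem append_mem_kstar {K : Language α} {u v : List α} (hu : u ∈ KStar.kstar K)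
    (hv : v ∈ KStar.kstar K) : u ++ v ∈ KStar.kstar K := by
  obtain ⟨A, rfl, hA⟩ := Language.mem_kstar.mp hu
  obtain ⟨B, rfl, hB⟩ := Language.mem_kstar.mp hv
  exact Language.mem_kstar.mpr ⟨A ++ B, by simp, fun y hy =>
    (List.mem_append.mp hy).elim (hA y) (hB y)⟩

theorem mem_kstar_self {K : Language α} {w : List α} (hw : w ∈ K) : w ∈ KStar.kstar K :=
  Language.mem_kstar.mpr ⟨[w], by simp, by simpa using hw⟩

theorem cons_mem_mul {P Q : Language α} {a : α} {w : List α} :
    a :: w ∈ P * Q ↔ (∃ u v, u ++ v = w ∧ a :: u ∈ P ∧ v ∈ Q) ∨ ([] ∈ P ∧ a :: w ∈ Q) := by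
  rw [Language.mem_mul]
  constructor
  · rintro ⟨u, hu, v, hv, e⟩
    cases u with
    | nil =>
      simp only [List.nil_append] at e
      exact Or.inr ⟨hu, e ▸ hv⟩
    | cons b u =>
      obtain ⟨rfl, rfl⟩ := List.cons_eq_cons.mp e
      exact Or.inl ⟨u, v, rfl, hu, hv⟩
  · rintro (⟨u, v, rfl, hu, hv⟩ | ⟨h, h'⟩)
    · exact ⟨a :: u, hu, v, hv, rfl⟩
    · exact ⟨[], h, a :: w, h', rfl⟩

theorem mem_der (a : α) : ∀ (P : GenExpr α) (w : List α), w ∈ (der a P).lang ↔ a :: w ∈ P.lang
  | .zero, w => iff_of_false (Language.notMem_zero w) (Language.notMem_zero _)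
  | .one, w => iff_of_false (Language.notMem_zero w) fun h => by
      simp [GenExpr.lang, Language.mem_one] at h
  | .letter b, w => by
    simp only [der]
    split_ifs with h
    · subst h
      show w ∈ (1 : Language α) ↔ a :: w ∈ ({[a]} : Language α)
      rw [Language.mem_one, mem_singleton_lang, List.cons_eq_cons]
      simp
    · refine iff_of_false (Language.notMem_zero w) fun hw => h ?_
      exact (List.cons_eq_cons.mp (mem_singleton_lang.mp hw)).1
  | .add P Q, w => by
    show w ∈ (der a P).lang + (der a Q).lang ↔ a :: w ∈ P.lang + Q.lang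
    rw [Language.mem_add, Language.mem_add, mem_der a P, mem_der a Q]
  | .mul P Q, w => by
    show _ ↔ a :: w ∈ P.lang * Q.lang
    rw [cons_mem_mul]
    have hmul : w ∈ (der a P).lang * Q.lang ↔
        ∃ u v, u ++ v = w ∧ a :: u ∈ P.lang ∧ v ∈ Q.lang := by
      rw [Language.mem_mul]
      constructor
      · rintro ⟨u, hu, v, hv, e⟩
        exact ⟨u, v, e, (mem_der a P u).mp hu, hv⟩
      · rintro ⟨u, v, e, hu, hv⟩
        exact ⟨u, (mem_der a P u).mpr hu, v, hv, e⟩
    simp only [der]
    split_ifs with h
    · show w ∈ (der a P).lang * Q.lang + (der a Q).lang ↔ _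
      rw [Language.mem_add, hmul, mem_der a Q]
      simp only [h, true_and]
    · show w ∈ (der a P).lang * Q.lang ↔ _
      rw [hmul]
      simp only [h, false_and, or_false]
  | .compl P, w => not_congr (mem_der a P w)
  | .star P, w => by
    show w ∈ (der a P).lang * KStar.kstar P.lang ↔ a :: w ∈ KStar.kstar P.lang
    rw [Language.mem_mul]
    constructor
    · rintro ⟨u, hu, v, hv, rfl⟩
      exact append_mem_kstar (mem_kstar_self ((mem_der a P u).mp hu)) hv
    · intro h
      obtain ⟨L, e, hL⟩ := Language.mem_kstar_iff_exists_nonempty.mp h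
      match L, e, hL with
      | [], e, _ => simp at e
      | k :: L, e, hL =>
        obtain ⟨hk, hne⟩ := hL k (by simp)
        match k, hk, hne with
        | [], _, hne => exact absurd rfl hne
        | b :: k, hk, _ =>
          simp only [List.flatten_cons, List.cons_append, List.cons.injEq] at e
          obtain ⟨rfl, rfl⟩ := e
          exact ⟨k, (mem_der a P k).mpr hk, L.flatten,
            Language.mem_kstar.mpr ⟨L, rfl, fun y hy => (hL y (by simp [hy])).1⟩, rfl⟩

theorem heightLE_lquot {c : ℕ} {L : Language α} (h : HeightLE c L) (p : List α) :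
    HeightLE c (lset fun w => p ++ w ∈ L) := by
  induction p generalizing L with
  | nil => exact h.congr fun w => Iff.rfl
  | cons a p ih =>
    obtain ⟨P, hP, rfl⟩ := h
    exact (ih ⟨der a P, (height_der a P).trans hP, rfl⟩).congr fun w => mem_der a P (p ++ w)

/-- The expression of the reversed language. -/
def mirror : GenExpr α → GenExpr α
  | .zero => .zero
  | .one => .one
  | .letter b => .letter b
  | .add P Q => .add (mirror P) (mirror Q)
  | .mul P Q => .mul (mirror Q) (mirror P)
  | .compl P => .compl (mirror P)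
  | .star P => .star (mirror P)

theorem height_mirror : ∀ P : GenExpr α, (mirror P).height = P.height
  | .zero => rfl
  | .one => rfl
  | .letter _ => rfl
  | .add P Q => congrArg₂ max (height_mirror P) (height_mirror Q)
  | .mul P Q => (congrArg₂ max (height_mirror Q) (height_mirror P)).trans (max_comm _ _)
  | .compl P => height_mirror P
  | .star P => congrArg (· + 1) (height_mirror P)

theorem mem_mirror : ∀ (P : GenExpr α) (w : List α), w ∈ (mirror P).lang ↔ w.reverse ∈ P.lang
  | .zero, w => iff_of_false (Language.notMem_zero w) (Language.notMem_zero _)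
  | .one, w => by simp [mirror, GenExpr.lang, Language.mem_one]
  | .letter b, w => by
    show w = [b] ↔ w.reverse = [b]
    rw [List.reverse_eq_iff]
    simp
  | .add P Q, w => by
    show w ∈ (mirror P).lang + (mirror Q).lang ↔ w.reverse ∈ P.lang + Q.lang
    rw [Language.mem_add, Language.mem_add, mem_mirror P, mem_mirror Q]
  | .mul P Q, w => by
    show w ∈ (mirror Q).lang * (mirror P).lang ↔ w.reverse ∈ P.lang * Q.lang
    rw [Language.mem_mul, Language.mem_mul]
    constructor
    · rintro ⟨u, hu, v, hv, rfl⟩
      exact ⟨v.reverse, (mem_mirror P v).mp hv, u.reverse, (mem_mirror Q u).mp hu, by simp⟩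
    · rintro ⟨u, hu, v, hv, e⟩
      refine ⟨v.reverse, (mem_mirror Q _).mpr (by simpa using hv), u.reverse,
        (mem_mirror P _).mpr (by simpa using hu), ?_⟩
      rw [← List.reverse_append, e, List.reverse_reverse]
  | .compl P, w => not_congr (mem_mirror P w)
  | .star P, w => by
    show w ∈ KStar.kstar (mirror P).lang ↔ w.reverse ∈ KStar.kstar P.lang
    rw [Language.mem_kstar, Language.mem_kstar]
    constructor
    · rintro ⟨L, rfl, hL⟩
      refine ⟨(L.map List.reverse).reverse, by rw [List.reverse_flatten], fun y hy => ?_⟩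
      simp only [List.mem_reverse, List.mem_map] at hy
      obtain ⟨z, hz, rfl⟩ := hy
      exact (mem_mirror P z).mp (hL z hz)
    · rintro ⟨L, e, hL⟩
      refine ⟨(L.map List.reverse).reverse, ?_, fun y hy => ?_⟩
      · rw [← List.reverse_flatten, ← e, List.reverse_reverse]
      · simp only [List.mem_reverse, List.mem_map] at hy
        obtain ⟨z, hz, rfl⟩ := hy
        exact (mem_mirror P _).mpr (by simpa using hL z hz)

theorem heightLE_mirror {c : ℕ} {L : Language α} (h : HeightLE c L) :
    HeightLE c (lset fun w => w.reverse ∈ L) := by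
  obtain ⟨P, hP, rfl⟩ := h
  exact ⟨mirror P, (height_mirror P).le.trans hP, Set.ext (mem_mirror P)⟩

/-- Two-sided quotients keep the height. -/
theorem heightLE_quot {c : ℕ} {L : Language α} (h : HeightLE c L) (p q : List α) :
    HeightLE c (lset fun w => p ++ w ++ q ∈ L) := by
  refine (heightLE_mirror (heightLE_lquot (heightLE_mirror (heightLE_lquot h p)) q.reverse)).congr
    fun w => ?_
  show p ++ (q.reverse ++ w.reverse).reverse ∈ L ↔ p ++ w ++ q ∈ L
  simp [List.append_assoc]

/-- A language recognised by a finite monoid. -/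
def Recog (L : Language α) : Prop :=
  ∃ (M : Type) (_ : Monoid M) (_ : Finite M) (φ : List α → M) (X : Set M),
    (∀ u v, φ (u ++ v) = φ u * φ v) ∧ ∀ w, w ∈ L ↔ φ w ∈ X

variable {G : Type} [Group G] {π : List α → G}

theorem recog_of_blind {L : Language α} (h : Blind π L) : Recog L :=
  let ⟨M, i, j, φ, X, m, r, _⟩ := h
  ⟨M, i, j, φ, X, m, r⟩

theorem leftQuotient_kstar {K : Language α} {M : Type} [Monoid M] (φ : List α → M) (X : Set M)
    (hφ : ∀ u v, φ (u ++ v) = φ u * φ v) (hX : ∀ w, w ∈ K ↔ φ w ∈ X) (w x : List α) :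
    w ++ x ∈ KStar.kstar K ↔ (w ∈ KStar.kstar K ∧ x ∈ KStar.kstar K) ∨
      ∃ m ∈ {m | ∃ s t, s ++ t = w ∧ s ∈ KStar.kstar K ∧ φ t = m},
        ∃ x1 x2, x1 ++ x2 = x ∧ m * φ x1 ∈ X ∧ x2 ∈ KStar.kstar K := by
  constructor
  · intro h
    obtain ⟨L, e, hL⟩ := Language.mem_kstar.mp h
    clear h
    induction L generalizing w with
    | nil =>
      simp only [List.flatten_nil, List.append_eq_nil_iff] at e
      obtain ⟨rfl, rfl⟩ := e
      exact Or.inl ⟨Language.nil_mem_kstar _, Language.nil_mem_kstar _⟩
    | cons k L ih =>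
      have hk : k ∈ K := hL k (by simp)
      have hrest : L.flatten ∈ KStar.kstar K :=
        Language.mem_kstar.mpr ⟨L, rfl, fun y hy => hL y (by simp [hy])⟩
      rw [List.flatten_cons] at e
      rcases List.append_eq_append_iff.mp e with ⟨c, hc1, hc2⟩ | ⟨c, hc1, hc2⟩
      · refine Or.inr ⟨φ w, ⟨[], w, rfl, Language.nil_mem_kstar _, rfl⟩, c, L.flatten, hc2.symm,
          ?_, hrest⟩
        rw [← hφ, ← hc1, ← hX]
        exact hk
      · rcases ih c hc2.symm (fun y hy => hL y (by simp [hy])) with
          ⟨h1, h2⟩ | ⟨m, ⟨s, t, hst, hs, hm⟩, h3⟩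
        · exact Or.inl ⟨by rw [hc1]; exact append_mem_kstar (mem_kstar_self hk) h1, h2⟩
        · exact Or.inr ⟨m, ⟨k ++ s, t, by rw [hc1, List.append_assoc, hst],
            append_mem_kstar (mem_kstar_self hk) hs, hm⟩, h3⟩
  · rintro (⟨h1, h2⟩ | ⟨_, ⟨s, t, rfl, hs, rfl⟩, x1, x2, rfl, hm, h2⟩)
    · exact append_mem_kstar h1 h2
    · rw [show s ++ t ++ (x1 ++ x2) = s ++ ((t ++ x1) ++ x2) by simp]
      refine append_mem_kstar hs (append_mem_kstar (mem_kstar_self ?_) h2)
      rw [hX, hφ]
      exact hm

theorem finite_quotients_kstar {K : Language α} (h : Recog K) :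
    (Set.range (KStar.kstar K).leftQuotient).Finite := by
  classical
  obtain ⟨M, i, j, φ, X, hφ, hX⟩ := h
  let code : List α → Prop × Set M := fun w =>
    (w ∈ KStar.kstar K, {m | ∃ s t, s ++ t = w ∧ s ∈ KStar.kstar K ∧ φ t = m})
  let dec : Prop × Set M → Language α := fun c => lset fun x => (c.1 ∧ x ∈ KStar.kstar K) ∨
    ∃ m ∈ c.2, ∃ x1 x2, x1 ++ x2 = x ∧ m * φ x1 ∈ X ∧ x2 ∈ KStar.kstar K
  refine (Set.finite_range dec).subset ?_
  rintro _ ⟨w, rfl⟩
  exact ⟨code w, (Set.ext fun x => leftQuotient_kstar φ X hφ hX w x).symm⟩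

/-- A language with finitely many left quotients is recognised by a monoid that identifies exactly
the syntactically congruent words. -/
theorem exists_syn {L : Language α} (h : (Set.range L.leftQuotient).Finite) :
    ∃ (M : Type) (_ : Monoid M) (_ : Finite M) (φ : List α → M) (X : Set M),
      (∀ u v, φ (u ++ v) = φ u * φ v) ∧ (∀ w, w ∈ L ↔ φ w ∈ X) ∧
      ∀ u v, φ u = φ v ↔ SynEq L u v := by
  have : Finite (Set.range L.leftQuotient) := h.to_subtype
  have : Finite (Function.End (Set.range L.leftQuotient)) :=
    inferInstanceAs (Finite (Set.range L.leftQuotient → Set.range L.leftQuotient))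
  have : Finite (Function.End (Set.range L.leftQuotient))ᵐᵒᵖ :=
    Finite.of_equiv _ MulOpposite.opEquiv
  let act : List α → Set.range L.leftQuotient → Set.range L.leftQuotient := fun w s =>
    ⟨s.1.leftQuotient w, by
      obtain ⟨_, p, rfl⟩ := s
      exact ⟨p ++ w, L.leftQuotient_append p w⟩⟩
  let φ : List α → (Function.End (Set.range L.leftQuotient))ᵐᵒᵖ := fun w =>
    MulOpposite.op (act w)
  refine ⟨_, inferInstance, inferInstance, φ, {f | [] ∈ (f.unop ⟨L.leftQuotient [], [], rfl⟩).1},
    fun u v => ?_, fun w => ?_, fun u v => ?_⟩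
  · refine MulOpposite.unop_injective (funext fun s => Subtype.ext ?_)
    exact Language.leftQuotient_append s.1 u v
  · show w ∈ L ↔ [] ++ (w ++ []) ∈ L
    simp
  · constructor
    · intro e p q
      have h1 := congrArg Subtype.val (congrFun (congrArg MulOpposite.unop e)
        ⟨L.leftQuotient p, p, rfl⟩)
      have h2 : p ++ (u ++ q) ∈ L ↔ p ++ (v ++ q) ∈ L := Set.ext_iff.mp h1 q
      simpa [List.append_assoc] using h2
    · intro e
      refine MulOpposite.unop_injective (funext fun s => Subtype.ext (Set.ext fun q => ?_))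
      obtain ⟨_, p, rfl⟩ := s
      show p ++ (u ++ q) ∈ L ↔ p ++ (v ++ q) ∈ L
      simpa [List.append_assoc] using e p q

theorem blind_of_small [Finite G] (hπ : Function.Surjective π) (hG : 3 < Nat.card G) {k : ℕ}
    (hk : k ≤ 3) {M : Type} [Monoid M] [Finite M] (hM : Nat.card M ≤ k) (φ : List α → M)
    (X : Set M) (hφ : ∀ u v, φ (u ++ v) = φ u * φ v) {L : Language α}
    (hX : ∀ w, w ∈ L ↔ φ w ∈ X) : Blind π L := by
  refine ⟨M, inferInstance, inferInstance, φ, X, hφ, hX, ?_⟩
  by_contra hcon
  push Not at hcon
  have hinj : Function.Injective fun g : G => φ (Function.surjInv hπ g) := fun a b hab => by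
    have := hcon _ _ hab
    rwa [Function.surjInv_eq hπ, Function.surjInv_eq hπ] at this
  have := Nat.card_le_card_of_injective _ hinj
  omega

/-- The monoid of the classes `[]`, `[a]` and the rest. -/
inductive Tri : Type
  | e
  | a
  | z
  deriving DecidableEq

instance : Fintype Tri := ⟨{.e, .a, .z}, fun x => by cases x <;> simp⟩

instance : Monoid Tri where
  one := .e
  mul x y := match x, y with
    | .e, y => y
    | x, .e => x
    | _, _ => .z
  mul_assoc x y w := by cases x <;> cases y <;> cases w <;> rfl
  one_mul x := by cases x <;> rfl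
  mul_one x := by cases x <;> rfl

/-- The class of a word. -/
noncomputable def tri (a : α) : List α → Tri
  | [] => .e
  | b :: w => open Classical in (if b = a then Tri.a else Tri.z) * tri a w

theorem tri_append (a : α) : ∀ u v : List α, tri a (u ++ v) = tri a u * tri a v
  | [], v => (one_mul (tri a v)).symm
  | b :: u, v => by simp only [List.cons_append, tri, tri_append a u v, mul_assoc]

theorem blind_height [Finite G] (hG : Separating G) (hcard : 3 < Nat.card G)
    (hπ : ∀ u v, π (u ++ v) = π u * π v) (hs : Function.Surjective π)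
    {c : ℕ} (hc : c ≤ 1) (hno : c = 1 → ∀ P : GenExpr α, P.height = 0 →
      ¬ ∀ u v, SynEq (KStar.kstar P.lang) u v → π u = π v) :
    ∀ P : GenExpr α, P.height ≤ c → Blind π P.lang
  | .zero, _ => blind_of_small hs hcard le_rfl (M := PUnit) (by simp) (fun _ => PUnit.unit) ∅
      (fun _ _ => rfl) fun w => iff_of_false (Language.notMem_zero w) id
  | .one, _ => by
    classical
    rcases isEmpty_or_nonempty α with hα | ⟨⟨a⟩⟩
    · obtain ⟨w, hw⟩ := hs.hasRightInverse
      have : Subsingleton G := ⟨fun g g' => by
        rw [← hw g, ← hw g']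
        congr 1
        have h0 : ∀ l : List α, l = [] := fun l => by
          cases l with
          | nil => rfl
          | cons b _ => exact isEmptyElim b
        rw [h0 (w g), h0 (w g')]⟩
      rw [Nat.card_of_subsingleton (1 : G)] at hcard
      omega
    · refine blind_of_small hs hcard le_rfl (M := Tri) (by simp; decide) (tri a) {Tri.e}
        (tri_append a) fun w => ?_
      show w ∈ (1 : Language α) ↔ tri a w = Tri.e
      rw [Language.mem_one]
      match w with
      | [] => simp [tri]
      | b :: w =>
        simp only [List.cons_ne_nil, false_iff, tri]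
        cases tri a w <;> split_ifs <;> exact fun h => nomatch h
  | .letter a, _ => by
    classical
    refine blind_of_small hs hcard le_rfl (M := Tri) (by simp; decide) (tri a) {Tri.a}
      (tri_append a) fun w => ?_
    show w = [a] ↔ tri a w = Tri.a
    match w with
    | [] => exact iff_of_false (by simp) fun h => nomatch h
    | [b] =>
      by_cases h : b = a
      · simp only [tri, if_pos h, h]
        exact iff_of_true trivial rfl
      · simp only [tri, if_neg h, List.cons.injEq, h, false_and, false_iff]
        exact fun h => nomatch h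
    | b :: c :: t =>
      simp only [tri, List.cons.injEq, reduceCtorEq, and_false, false_iff]
      cases tri a t <;> split_ifs <;> exact fun h => nomatch h
  | .add P Q, h => Blind.union π hG hπ hs
      (blind_height hG hcard hπ hs hc hno P ((le_max_left _ _).trans h))
      (blind_height hG hcard hπ hs hc hno Q ((le_max_right _ _).trans h))
  | .mul P Q, h => Blind.cat π hG hπ hs
      (blind_height hG hcard hπ hs hc hno P ((le_max_left _ _).trans h))
      (blind_height hG hcard hπ hs hc hno Q ((le_max_right _ _).trans h))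
  | .compl P, h => by
    obtain ⟨M, i, j, φ, X, m, r, b⟩ := blind_height hG hcard hπ hs hc hno P h
    exact ⟨M, i, j, φ, Xᶜ, m, fun w => not_congr (r w), b⟩
  | .star P, h => by
    have h0 : P.height = 0 := by simp only [GenExpr.height] at h; omega
    obtain ⟨M, i, j, φ, X, m, r, hsyn⟩ := exists_syn
      (finite_quotients_kstar (recog_of_blind
        (blind_height hG hcard hπ hs hc hno P (by omega))))
    refine ⟨M, i, j, φ, X, m, r, ?_⟩
    by_contra hcon
    push Not at hcon
    exact hno (by simp only [GenExpr.height] at h; omega) P h0 fun u v huv =>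
      hcon u v ((hsyn u v).mpr huv)

end OneStar

open OneStar

/-- Height one of a word language of the group is witnessed by one star of a star-free language. -/
theorem heightLE_one_iff_single_star {α G : Type} [Group G] [Finite G] (hG : Separating G)
    (hcard : 3 < Nat.card G) (π : List α → G) (hπ : ∀ u v, π (u ++ v) = π u * π v)
    (hs : Function.Surjective π) (S : Set G)
    (hsep : ∀ g h : G, g ≠ h → ∃ a b : G, ¬ (a * g * b ∈ S ↔ a * h * b ∈ S)) :
    HeightLE 1 (lset fun w => π w ∈ S) ↔
      ∃ K : Language α, HeightLE 0 K ∧ ∀ u v, SynEq (KStar.kstar K) u v → π u = π v := by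
  classical
  constructor
  · rintro ⟨P, hP, hL⟩
    by_contra hcon
    push Not at hcon
    have hno : ∀ Q : GenExpr α, Q.height = 0 →
        ¬ ∀ u v, SynEq (KStar.kstar Q.lang) u v → π u = π v := by
      intro Q hQ h
      obtain ⟨u, v, huv, hne⟩ := hcon Q.lang ⟨Q, hQ.le, rfl⟩
      exact hne (h u v huv)
    obtain ⟨M, _, _, φ, X, hφ, hr, u, v, huv, hne⟩ := blind_height hG hcard hπ hs le_rfl (fun _ => hno) P hP
    obtain ⟨a, b, hab⟩ := hsep _ _ hne
    obtain ⟨p, rfl⟩ := hs a
    obtain ⟨q, rfl⟩ := hs b
    apply hab
    have h1 := hr (p ++ u ++ q)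
    have h2 := hr (p ++ v ++ q)
    rw [hL] at h1 h2
    rw [hφ, hφ, huv, ← hφ, ← hφ] at h1
    have h3 := h1.trans h2.symm
    have h4 : π (p ++ u ++ q) ∈ S ↔ π (p ++ v ++ q) ∈ S := h3
    rwa [hπ, hπ, hπ, hπ] at h4
  · rintro ⟨K, hK0, hK⟩
    obtain ⟨P, hP, rfl⟩ := hK0
    obtain ⟨M, i, j, φ, X, hφ, hr, hsyn⟩ := exists_syn (finite_quotients_kstar
      (recog_of_blind (blind_height hG hcard hπ hs (c := 0) zero_le_one (by omega) P (by omega))))
    have hstar : HeightLE 1 (KStar.kstar P.lang) := ⟨P.star, by simp [GenExpr.height]; omega, rfl⟩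
    let R : Finset M := (Set.toFinite (Set.range φ)).toFinset
    let rep : M → List α := fun m => if h : ∃ w, φ w = m then h.choose else []
    have hrep : ∀ w, φ (rep (φ w)) = φ w := fun w => by
      simp only [rep, dif_pos (show ∃ v, φ v = φ w from ⟨w, rfl⟩)]
      exact (show ∃ v, φ v = φ w from ⟨w, rfl⟩).choose_spec
    have hR : ∀ w, φ w ∈ R := fun w => by simp [R]
    have hclass : ∀ u, HeightLE 1 (lset fun w => φ w = φ u) := by
      intro u
      refine (heightLE_forall (R ×ˢ R)
        (fun m => if rep m.1 ++ u ++ rep m.2 ∈ KStar.kstar P.lang then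
          lset fun w => rep m.1 ++ w ++ rep m.2 ∈ KStar.kstar P.lang else
          lset fun w => w ∉ lset fun w => rep m.1 ++ w ++ rep m.2 ∈ KStar.kstar P.lang)
        (fun m _ => ?_)).congr fun w => ?_
      · split_ifs
        · exact heightLE_quot hstar _ _
        · exact (heightLE_quot hstar _ _).not
      · constructor
        · intro hw
          refine (hsyn w u).mpr fun p q => ?_
          have hm := hw (φ p, φ q) (Finset.mem_product.mpr ⟨hR p, hR q⟩)
          have e : ∀ x, rep (φ p) ++ x ++ rep (φ q) ∈ KStar.kstar P.lang ↔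
              p ++ x ++ q ∈ KStar.kstar P.lang := fun x => by
            rw [hr, hr, hφ, hφ, hφ, hφ, hrep, hrep]
          by_cases hc : rep (φ p) ++ u ++ rep (φ q) ∈ KStar.kstar P.lang
          · rw [if_pos hc] at hm
            exact iff_of_true ((e w).mp hm) ((e u).mp hc)
          · rw [if_neg hc] at hm
            exact iff_of_false (fun h => hm ((e w).mpr h)) (fun h => hc ((e u).mpr h))
        · intro hw m _
          have hwu := ((hsyn w u).mp hw) (rep m.1) (rep m.2)
          by_cases hc : rep m.1 ++ u ++ rep m.2 ∈ KStar.kstar P.lang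
          · rw [if_pos hc]; exact hwu.mpr hc
          · rw [if_neg hc]; exact fun h => hc (hwu.mp h)
    refine (heightLE_exists (R.filter fun m => π (rep m) ∈ S)
      (fun m => lset fun w => φ w = φ (rep m)) (fun m _ => hclass (rep m))).congr fun w => ?_
    constructor
    · rintro ⟨m, hm, hw⟩
      show π w ∈ S
      rw [hK w (rep m) ((hsyn _ _).mp hw)]
      exact (Finset.mem_filter.mp hm).2
    · intro hw
      refine ⟨φ w, Finset.mem_filter.mpr ⟨hR w, ?_⟩, (hrep w).symm⟩
      rwa [hK (rep (φ w)) w ((hsyn _ _).mp (hrep w))]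

end Vale.Agent.P329
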